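import Mathlib.Topology.ContinuousMap.Compact
import Mathlib.Topology.UnitInterval
import Mathlib.Topology.Order.MonotoneContinuity
import Mathlib.Analysis.Complex.Basic
import Mathlib.MeasureTheory.Measure.Prokhorov
import Mathlib.MeasureTheory.Measure.LevyProkhorovMetric

/-!
# P153 / R2 / C1 : curves modulo reparametrisation

Curves are `C(unitInterval, ℂ)` with the uniform metric.  `curveDist` is the uniform distance
modulo increasing reparametrisations.  `Cross g y r r' k` says that `g` makes at least `k`
successive excursions from the closed disc `B(y,r)` to the outside of the disc `B(y,r')`.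
-/

open MeasureTheory Set Filter Topology unitInterval

namespace Vale.Agent.P153.R2.C1

/-- Reparametrisation of a curve by an increasing homeomorphism of `[0,1]`. -/
noncomputable def reparam (g : C(unitInterval, ℂ)) (φ : unitInterval ≃o unitInterval) : C(unitInterval, ℂ) :=
  g.comp ⟨φ, φ.continuous⟩

/-- The uniform distance of two curves modulo increasing reparametrisation. -/
noncomputable def curveDist (g g' : C(unitInterval, ℂ)) : ℝ :=
  ⨅ φ : unitInterval ≃o unitInterval, dist g (reparam g' φ)

/-- Continuity of a function of curves for the uniform distance modulo reparametrisation. -/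
def CurveCont (F : C(unitInterval, ℂ) → ℝ) : Prop :=
  ∀ g : C(unitInterval, ℂ), ∀ ε > 0, ∃ η > 0, ∀ g' : C(unitInterval, ℂ),
    curveDist g g' < η → |F g' - F g| < ε

/-- `g` makes at least `k` successive excursions from the closed disc of centre `y` and radius `r`
to the complement of the open disc of centre `y` and radius `r'`. -/
def Cross (g : C(unitInterval, ℂ)) (y : ℂ) (r r' : ℝ) (k : ℕ) : Prop :=
  ∃ t : ℕ → unitInterval, Monotone t ∧
    ∀ i < k, dist (g (t (2 * i))) y ≤ r ∧ r' ≤ dist (g (t (2 * i + 1))) y

end Vale.Agent.P153.R2.C1
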