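import Vale.Agent.P153.R2.C1.Weak

/-!
# P153 / R2 / C1 : the distance modulo reparametrisation, and the assembly of convergence in law
-/

open MeasureTheory Set Filter Topology unitInterval
open scoped ENNReal

namespace Vale.Agent.P153.R2.C1

lemma reparam_apply (g : C(unitInterval, ℂ)) (φ : unitInterval ≃o unitInterval)
    (t : unitInterval) : reparam g φ t = g (φ t) := rfl

lemma reparam_reparam (g : C(unitInterval, ℂ)) (φ ψ : unitInterval ≃o unitInterval) :
    reparam (reparam g φ) ψ = reparam g (ψ.trans φ) := rfl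

lemma reparam_refl (g : C(unitInterval, ℂ)) : reparam g (OrderIso.refl _) = g := rfl

lemma reparam_symm (g : C(unitInterval, ℂ)) (φ : unitInterval ≃o unitInterval) :
    reparam (reparam g φ) φ.symm = g := by
  ext t
  change g (φ (φ.symm t)) = g t
  rw [φ.apply_symm_apply]

lemma dist_reparam (g g' : C(unitInterval, ℂ)) (φ : unitInterval ≃o unitInterval) :
    dist (reparam g φ) (reparam g' φ) = dist g g' := by
  have key : ∀ (g g' : C(unitInterval, ℂ)) (φ : unitInterval ≃o unitInterval),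
      dist (reparam g φ) (reparam g' φ) ≤ dist g g' := fun g g' φ =>
    (ContinuousMap.dist_le dist_nonneg).2 fun t => ContinuousMap.dist_apply_le_dist (φ t)
  refine le_antisymm (key g g' φ) ?_
  have := key (reparam g φ) (reparam g' φ) φ.symm
  rwa [reparam_symm, reparam_symm] at this

lemma bddBelow_dist (g g' : C(unitInterval, ℂ)) :
    BddBelow (range fun φ : unitInterval ≃o unitInterval => dist g (reparam g' φ)) :=
  ⟨0, by rintro _ ⟨φ, rfl⟩; exact dist_nonneg⟩

lemma curveDist_nonneg (g g' : C(unitInterval, ℂ)) : 0 ≤ curveDist g g' :=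
  Real.iInf_nonneg fun _ => dist_nonneg

lemma curveDist_le (g g' : C(unitInterval, ℂ)) (φ : unitInterval ≃o unitInterval) :
    curveDist g g' ≤ dist g (reparam g' φ) := ciInf_le (bddBelow_dist g g') φ

lemma curveDist_le_dist (g g' : C(unitInterval, ℂ)) : curveDist g g' ≤ dist g g' := by
  simpa [reparam_refl] using curveDist_le g g' (OrderIso.refl _)

lemma exists_dist_lt {g g' : C(unitInterval, ℂ)} {c : ℝ} (h : curveDist g g' < c) :
    ∃ φ : unitInterval ≃o unitInterval, dist g (reparam g' φ) < c :=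
  exists_lt_of_ciInf_lt h

lemma curveDist_comm (g g' : C(unitInterval, ℂ)) : curveDist g g' = curveDist g' g := by
  have key : ∀ g g' : C(unitInterval, ℂ), curveDist g g' ≤ curveDist g' g := by
    intro g g'
    refine le_ciInf fun φ => (curveDist_le g g' φ.symm).trans (le_of_eq ?_)
    have := dist_reparam g (reparam g' φ.symm) φ
    rw [reparam_reparam g' φ.symm φ, OrderIso.self_trans_symm, reparam_refl] at this
    rw [← this, dist_comm]
  exact le_antisymm (key g g') (key g' g)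

lemma curveDist_triangle (g g' g'' : C(unitInterval, ℂ)) :
    curveDist g g'' ≤ curveDist g g' + curveDist g' g'' := by
  refine le_of_forall_pos_le_add fun ε hε => ?_
  obtain ⟨φ, hφ⟩ := exists_dist_lt (show curveDist g g' < curveDist g g' + ε / 2 by linarith)
  obtain ⟨ψ, hψ⟩ := exists_dist_lt (show curveDist g' g'' < curveDist g' g'' + ε / 2 by linarith)
  have h1 := curveDist_le g g'' (φ.trans ψ)
  have h2 : dist (reparam g' φ) (reparam g'' (φ.trans ψ)) = dist g' (reparam g'' ψ) := by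
    rw [← reparam_reparam g'' ψ φ, dist_reparam]
  have h3 := dist_triangle g (reparam g' φ) (reparam g'' (φ.trans ψ))
  linarith

lemma curveDist_reparam_self (g : C(unitInterval, ℂ)) (φ : unitInterval ≃o unitInterval) :
    curveDist g (reparam g φ) = 0 := by
  refine le_antisymm ((curveDist_le g _ φ.symm).trans ?_) (curveDist_nonneg _ _)
  rw [reparam_symm, dist_self]

lemma CurveCont.continuous {F : C(unitInterval, ℂ) → ℝ} (hF : CurveCont F) : Continuous F := by
  rw [Metric.continuous_iff]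
  intro g ε hε
  obtain ⟨η, hη, h⟩ := hF g ε hε
  refine ⟨η, hη, fun g' hg' => ?_⟩
  rw [Real.dist_eq]
  exact h g' ((curveDist_le_dist g g').trans_lt (by rwa [dist_comm]))

lemma CurveCont.reparam_eq {F : C(unitInterval, ℂ) → ℝ} (hF : CurveCont F)
    (g : C(unitInterval, ℂ)) (φ : unitInterval ≃o unitInterval) : F (reparam g φ) = F g := by
  by_contra hne
  have hpos : 0 < |F (reparam g φ) - F g| := abs_pos.2 (sub_ne_zero.2 hne)
  obtain ⟨η, hη, h⟩ := hF g _ hpos
  exact lt_irrefl _ (h (reparam g φ) (by rw [curveDist_reparam_self]; exact hη))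

lemma CurveCont.rho_eq {F : C(unitInterval, ℂ) → ℝ} (hF : CurveCont F)
    (g : C(unitInterval, ℂ)) : F (rho g) = F g := hF.reparam_eq g _

/-- ASSEMBLY. To prove convergence in law modulo reparametrisation it is enough to identify the
curve marginal of every joint subsequential limit of `(rho (X n), W n)`. -/
theorem assemble [MeasurableSpace C(unitInterval, ℂ)] [BorelSpace C(unitInterval, ℂ)]
    {E : Type*} [TopologicalSpace E] [PolishSpace E] [MeasurableSpace E] [BorelSpace E]
    (Ω : ℕ → Type*) [∀ n, MeasurableSpace (Ω n)] (P : ∀ n, Measure (Ω n))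
    (hP : ∀ n, IsProbabilityMeasure (P n))
    (X : ∀ n, Ω n → C(unitInterval, ℂ)) (hX : ∀ n, Measurable (X n))
    (W : ∀ n, Ω n → E) (hW : ∀ n, Measurable (W n)) (R : ℝ)
    (hR : ∀ n, ∀ᵐ ω ∂(P n), ∀ t, ‖X n ω t‖ ≤ R)
    (hx : ∀ (y : ℂ) (r : ℝ), 0 < r → ∀ η : ENNReal, 0 < η →
      ∃ k : ℕ, ∀ᶠ n in atTop, P n {ω | Cross (X n ω) y r (3 * r) k} ≤ η)
    (ht : IsTightMeasureSet (range fun n => (P n).map (W n)))
    (L : (C(unitInterval, ℂ) → ℝ) → ℝ)
    (hL : ∀ (ψ : ℕ → ℕ), Tendsto ψ atTop atTop → ∀ (μ : Measure (C(unitInterval, ℂ) × E)),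
      IsProbabilityMeasure μ →
      (∀ f : C(unitInterval, ℂ) × E → ℝ, Continuous f → (∃ C, ∀ x, |f x| ≤ C) →
        Tendsto (fun n => ∫ ω, f (rho (X (ψ n) ω), W (ψ n) ω) ∂(P (ψ n))) atTop
          (𝓝 (∫ x, f x ∂μ))) →
      ∀ F, CurveCont F → (∃ C, ∀ x, |F x| ≤ C) → ∫ x, F x.1 ∂μ = L F) :
    ∀ F, CurveCont F → (∃ C, ∀ x, |F x| ≤ C) →
      Tendsto (fun n => ∫ ω, F (X n ω) ∂(P n)) atTop (𝓝 (L F)) := by
  intro F hF hC
  refine tendsto_of_subseq_tendsto fun ψ hψ => ?_
  obtain ⟨θ, hθ, μ, hμ, h⟩ := joint_main Ω P hP X hX W hW R hR hx ht ψ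
  refine ⟨θ, ?_⟩
  obtain ⟨C, hC'⟩ := hC
  have h1 := h (fun x => F x.1) (hF.continuous.comp continuous_fst) ⟨C, fun x => hC' x.1⟩
  rw [hL (ψ ∘ θ) (hψ.comp hθ.tendsto_atTop) μ hμ (fun f hf hfC => h f hf hfC) F hF ⟨C, hC'⟩] at h1
  refine h1.congr fun n => ?_
  simp only [hF.rho_eq]

end Vale.Agent.P153.R2.C1
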