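import Vale.Agent.P153.R2.C1.Whitney
import Mathlib.Topology.UniformSpace.Ascoli
import Mathlib.Topology.MetricSpace.Equicontinuity
import Mathlib.Combinatorics.Pigeonhole

/-!
# P153 / R2 / C1 : uniform modulus of the canonical reparametrisation, compact sets of curves
-/

open Set Filter Topology unitInterval

namespace Vale.Agent.P153.R2.C1

/-- The chain `c` truncated at `s` up to index `m + 1`, continued by the constant `q`. -/
noncomputable def ext (c : ℕ →o unitInterval) (s q : unitInterval) (h : s ≤ q) (m : ℕ) :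
    ℕ →o unitInterval :=
  ⟨fun i => if i ≤ m + 1 then c i ⊓ s else q, by
    intro i j hij
    by_cases hj : j ≤ m + 1
    · have hi : i ≤ m + 1 := hij.trans hj
      simp only [hj, hi, if_true]
      exact inf_le_inf_right s (c.monotone hij)
    · by_cases hi : i ≤ m + 1
      · simp only [hj, hi, if_true, if_false]
        exact inf_le_right.trans h
      · simp only [hj, hi, if_false]; exact le_rfl⟩

lemma ext_of_le (c : ℕ →o unitInterval) (s q : unitInterval) (h : s ≤ q) (m : ℕ) {i : ℕ}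
    (hi : i ≤ m + 1) : ext c s q h m i ⊓ q = c i ⊓ s := by
  have : ext c s q h m i = c i ⊓ s := by
    change (if i ≤ m + 1 then c i ⊓ s else q) = _
    rw [if_pos hi]
  rw [this]
  exact inf_eq_left.2 (inf_le_right.trans h)

lemma ext_of_gt (c : ℕ →o unitInterval) (s q : unitInterval) (h : s ≤ q) (m : ℕ) {i : ℕ}
    (hi : ¬ i ≤ m + 1) : ext c s q h m i ⊓ q = q := by
  have : ext c s q h m i = q := by
    change (if i ≤ m + 1 then c i ⊓ s else q) = _
    rw [if_neg hi]
  rw [this, inf_idem]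

lemma wh_ext (g : C(unitInterval, ℂ)) (c : ℕ →o unitInterval) (s q : unitInterval) (h : s ≤ q)
    (m : ℕ) : min (step g m c s) (dist (g q) (g (c (m + 1) ⊓ s))) ≤ wh g (m + 1) q := by
  refine le_trans (le_step g (ext c s q h m) q fun i hi => ?_) (step_le_wh g (m + 1) _ q)
  by_cases him : i ≤ m
  · rw [ext_of_le c s q h m (by omega : i ≤ m + 1), ext_of_le c s q h m (by omega : i + 1 ≤ m + 1)]
    exact (min_le_left _ _).trans (step_le g c s (by omega))
  · have hi' : i = m + 1 := by omega
    subst hi'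
    rw [ext_of_le c s q h m le_rfl, ext_of_gt c s q h m (by omega)]
    exact min_le_right _ _

lemma wh_zero_ge (g : C(unitInterval, ℂ)) {s t : unitInterval} (h : s ≤ t) :
    dist (g t) (g s) ≤ wh g 0 t := by
  let c : ℕ →o unitInterval := ⟨fun i => if i = 0 then s else t, by
    intro i j hij
    by_cases hj : j = 0
    · have hi : i = 0 := by omega
      simp [hi, hj]
    · by_cases hi : i = 0
      · simp [hi, hj, h]
      · simp [hi, hj]⟩
  refine le_trans (le_step g c t fun i hi => ?_) (step_le_wh g 0 c t)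
  have hi' : i = 0 := by omega
  subst hi'
  have h1 : c (0 + 1) ⊓ t = t := by change t ⊓ t = t; exact inf_idem _
  have h2 : c 0 ⊓ t = s := by change s ⊓ t = s; exact inf_eq_left.2 h
  rw [h1, h2]

/-- KEY ESTIMATE: if `g` makes at most `N` steps larger than `ε / 8` and moves by at least `ε`
between `s` and `t` then one of the first `N + 1` Whitney functions increases by at least
`ε / (8 (N + 1))`. -/
theorem wh_gap (g : C(unitInterval, ℂ)) {ε : ℝ} (hε : 0 < ε) (N : ℕ) (hN : wh g N 1 ≤ ε / 8)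
    {s t : unitInterval} (hst : s ≤ t) (hd : ε ≤ dist (g t) (g s)) :
    ∃ k ≤ N, ε / (8 * (N + 1)) ≤ wh g k t - wh g k s := by
  classical
  set δ : ℝ := ε / (8 * (N + 1)) with hδ
  have hN0 : (0 : ℝ) < (N : ℝ) + 1 := by positivity
  have hδ0 : 0 < δ := by positivity
  have hδN : ((N : ℝ) + 1) * δ = ε / 8 := by rw [hδ]; field_simp
  have hδ8 : δ ≤ ε / 8 := by
    rw [← hδN]
    have : (1 : ℝ) ≤ (N : ℝ) + 1 := by
      have : (0 : ℝ) ≤ N := Nat.cast_nonneg N
      linarith
    nlinarith
  have hex : ∃ k, k ≤ N ∧ wh g k s ≤ ε / 8 + ((N : ℝ) - k) * δ := by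
    refine ⟨N, le_rfl, ?_⟩
    have : wh g N s ≤ wh g N 1 := wh_mono g N (show s ≤ 1 from s.2.2)
    simp only [sub_self, zero_mul, add_zero]
    exact this.trans hN
  obtain ⟨hkN, hk⟩ := Nat.find_spec hex
  set k := Nat.find hex with hkdef
  have hkle : wh g k s ≤ ε / 4 := by
    have h1 : ((N : ℝ) - k) * δ ≤ ((N : ℝ) + 1) * δ := by
      apply mul_le_mul_of_nonneg_right _ hδ0.le
      have : (0 : ℝ) ≤ k := Nat.cast_nonneg k
      linarith
    rw [hδN] at h1
    linarith
  refine ⟨k, hkN, ?_⟩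
  rcases Nat.eq_zero_or_pos k with h0 | hpos
  · have h1 := wh_zero_ge g hst
    rw [h0] at hkle ⊢
    linarith
  · obtain ⟨m, hm⟩ : ∃ m, k = m + 1 := ⟨k - 1, by omega⟩
    have hmin : ¬ (m ≤ N ∧ wh g m s ≤ ε / 8 + ((N : ℝ) - m) * δ) :=
      Nat.find_min hex (by rw [← hkdef]; omega)
    have hm1 : ε / 8 + ((N : ℝ) - m) * δ < wh g m s := by
      by_contra hcon
      exact hmin ⟨by omega, not_lt.1 hcon⟩
    have hm2 : wh g k s + δ < wh g m s := by
      refine lt_of_le_of_lt ?_ hm1
      have : ((N : ℝ) - k) = (N : ℝ) - m - 1 := by rw [hm]; push_cast; ring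
      rw [this] at hk
      linarith
    obtain ⟨c, hc⟩ := exists_lt_of_lt_ciSup hm2
    have h1 := wh_ext g c s s le_rfl m
    have h2 := wh_ext g c s t hst m
    rw [hm] at hc hkle ⊢
    have h3 : dist (g s) (g (c (m + 1) ⊓ s)) ≤ wh g (m + 1) s := by
      rcases min_le_iff.1 h1 with h | h
      · linarith
      · exact h
    have h4 : dist (g t) (g s) ≤ dist (g t) (g (c (m + 1) ⊓ s)) + dist (g s) (g (c (m + 1) ⊓ s)) := by
      rw [dist_comm (g s)]; exact dist_triangle _ _ _
    rcases min_le_iff.1 h2 with h | h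
    · linarith
    · linarith

/-- The modulus of continuity of the canonical reparametrisation. -/
noncomputable def cc (R : ℝ) (N : ℕ) (ε : ℝ) : ℝ := (1 / 2) ^ (N + 1) * (ε / (8 * (N + 1))) / (1 + 2 * R)

lemma cc_pos {R : ℝ} (hR : 0 ≤ R) (N : ℕ) {ε : ℝ} (hε : 0 < ε) : 0 < cc R N ε := by
  unfold cc; positivity

theorem rho_modulus (g : C(unitInterval, ℂ)) {R : ℝ} (hR : ‖g‖ ≤ R) {ε : ℝ} (hε : 0 < ε) (N : ℕ)
    (hN : wh g N 1 ≤ ε / 8) {u v : unitInterval} (huv : dist u v < cc R N ε) :
    dist (rho g u) (rho g v) < ε := by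
  by_contra hcon
  rw [not_lt] at hcon
  wlog huv' : v ≤ u generalizing u v with H
  · refine H (u := v) (v := u) (by rwa [dist_comm]) (by rwa [dist_comm]) ((not_le.1 huv').le)
  obtain ⟨t, rfl⟩ := hh_surjective g u
  obtain ⟨s, rfl⟩ := hh_surjective g v
  have hst : s ≤ t := (hh_strictMono g).le_iff_le.1 huv'
  rw [rho_hh, rho_hh] at hcon
  obtain ⟨k, hk, hgap⟩ := wh_gap g hε N hN hst hcon
  have h1 := tau_sub g hst k
  have h2 : (1 / 2 : ℝ) ^ (N + 1) ≤ (1 / 2 : ℝ) ^ (k + 1) :=
    pow_le_pow_of_le_one (by norm_num) (by norm_num) (by omega)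
  have h3 : (1 / 2 : ℝ) ^ (N + 1) * (ε / (8 * (N + 1))) ≤
      (1 / 2 : ℝ) ^ (k + 1) * (wh g k t - wh g k s) :=
    mul_le_mul h2 hgap (by positivity) (by positivity)
  have h4 : (s : ℝ) ≤ t := hst
  have h5 : (1 / 2 : ℝ) ^ (N + 1) * (ε / (8 * (N + 1))) ≤ tau g t - tau g s := by linarith
  have h6 : dist (hh g t) (hh g s) = (tau g t - tau g s) / tau g 1 := by
    rw [Subtype.dist_eq, Real.dist_eq]
    change |tau g t / tau g 1 - tau g s / tau g 1| = _
    rw [← sub_div, abs_of_nonneg (div_nonneg (sub_nonneg.2 ((tau_strictMono g).monotone hst))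
      (tau_nonneg g 1))]
  have h7 : cc R N ε ≤ dist (hh g t) (hh g s) := by
    rw [h6]
    unfold cc
    have h8 : tau g 1 ≤ 1 + 2 * R := (tau_one_le g).trans (by linarith)
    have h9 := tau_one_ge g
    calc (1 / 2 : ℝ) ^ (N + 1) * (ε / (8 * (N + 1))) / (1 + 2 * R)
        ≤ (1 / 2 : ℝ) ^ (N + 1) * (ε / (8 * (N + 1))) / tau g 1 := by
          apply div_le_div_of_nonneg_left (by positivity) (by linarith) h8
      _ ≤ (tau g t - tau g s) / tau g 1 := by
          apply div_le_div_of_nonneg_right h5 (by linarith)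
  exact absurd huv (not_lt.2 h7)

/-- The set of curves with given bound and given modulus of continuity. -/
def KK (R : ℝ) (c ε : ℕ → ℝ) : Set C(unitInterval, ℂ) :=
  {f | (∀ t, ‖f t‖ ≤ R) ∧ ∀ j u v, dist u v < c j → dist (f u) (f v) ≤ ε j}

theorem isCompact_KK (R : ℝ) (c ε : ℕ → ℝ) (hc : ∀ j, 0 < c j)
    (hε : ∀ e > 0, ∃ j, ε j < e) : IsCompact (KK R c ε) := by
  have heq : ∀ e > 0, ∃ δ > 0, ∀ f : unitInterval → ℂ,
      (∀ j u v, dist u v < c j → dist (f u) (f v) ≤ ε j) →
      ∀ u v, dist u v < δ → dist (f u) (f v) < e := by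
    intro e he
    obtain ⟨j, hj⟩ := hε e he
    exact ⟨c j, hc j, fun f hf u v huv => (hf j u v huv).trans_lt hj⟩
  refine ArzelaAscoli.isCompact_of_equicontinuous _ ?_ ?_
  · have himg : ContinuousMap.toFun '' (KK R c ε) =
        {f : unitInterval → ℂ | (∀ t, f t ∈ Metric.closedBall (0 : ℂ) R)} ∩
        ⋂ (j : ℕ) (u : unitInterval) (v : unitInterval) (_ : dist u v < c j),
          {f : unitInterval → ℂ | dist (f u) (f v) ≤ ε j} := by
      ext f
      simp only [mem_image, mem_inter_iff, mem_iInter, mem_ofPred_eq, KK, mem_closedBall_zero_iff]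
      constructor
      · rintro ⟨F, ⟨h1, h2⟩, rfl⟩
        exact ⟨h1, h2⟩
      · rintro ⟨h1, h2⟩
        have hfc : Continuous f := by
          rw [Metric.continuous_iff]
          intro t e he
          obtain ⟨δ, hδ, H⟩ := heq e he
          exact ⟨δ, hδ, fun a ha => H f h2 a t ha⟩
        exact ⟨⟨f, hfc⟩, ⟨h1, h2⟩, rfl⟩
    rw [himg]
    refine IsCompact.inter_right ?_ ?_
    · have := isCompact_univ_pi (s := fun _ : unitInterval => Metric.closedBall (0 : ℂ) R)
        fun _ => isCompact_closedBall _ _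
      refine this.of_isClosed_subset ?_ ?_
      · have : {f : unitInterval → ℂ | ∀ t, f t ∈ Metric.closedBall (0 : ℂ) R} =
            ⋂ t, {f : unitInterval → ℂ | f t ∈ Metric.closedBall (0 : ℂ) R} := by
          ext f; simp
        rw [this]
        exact isClosed_iInter fun t => Metric.isClosed_closedBall.preimage (continuous_apply t)
      · intro f hf t _
        exact hf t
    · refine isClosed_iInter fun j => isClosed_iInter fun u => isClosed_iInter fun v =>
        isClosed_iInter fun _ => ?_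
      exact isClosed_le ((continuous_apply u).dist (continuous_apply v)) continuous_const
  · intro t
    rw [Metric.equicontinuousAt_iff]
    intro e he
    obtain ⟨δ, hδ, H⟩ := heq e he
    refine ⟨δ, hδ, fun x hx f => ?_⟩
    rw [dist_comm] at hx
    exact H f.1 f.2.2 t x hx

/-- CROSSING CRITERION: if all annuli of a finite net are crossed few times, the curve makes few
steps larger than `e`. -/
theorem wh_le_of_cross (g : C(unitInterval, ℂ)) {R : ℝ} (hR : ‖g‖ ≤ R) {e : ℝ}
    (Y : Finset ℂ) (hY : ∀ z : ℂ, ‖z‖ ≤ R → ∃ y ∈ Y, dist z y ≤ e / 4) (k : ℕ)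
    (hk : ∀ y ∈ Y, ¬ Cross g y (e / 4) (3 * (e / 4)) k) : wh g (Y.card * k) 1 ≤ e := by
  classical
  by_contra hcon
  rw [not_le] at hcon
  obtain ⟨c, hc⟩ := exists_lt_of_lt_ciSup hcon
  set N := Y.card * k with hN
  have hstep : ∀ i < N + 1, e < dist (g (c (i + 1))) (g (c i)) := by
    intro i hi
    have h1 := step_le g c 1 hi
    have h2 : ∀ j, c j ⊓ 1 = c j := fun j => inf_eq_left.2 (c j).2.2
    rw [h2, h2] at h1
    linarith
  choose! y hyY hy using hY
  have hnorm : ∀ x, ‖g x‖ ≤ R := fun x => (g.norm_coe_le_norm x).trans hR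
  have hmaps : ∀ i ∈ Finset.range (N + 1), y (g (c i)) ∈ Y := fun i _ => hyY _ (hnorm _)
  have hcard : Y.card * k < (Finset.range (N + 1)).card := by rw [Finset.card_range]; omega
  obtain ⟨y0, hy0, hfib⟩ := Finset.exists_lt_card_fiber_of_mul_lt_card_of_maps_to hmaps hcard
  refine hk y0 hy0 ?_
  set J := (Finset.range (N + 1)).filter (fun i => y (g (c i)) = y0) with hJ
  let f : ℕ → ℕ := fun i => if h : i < k then J.orderEmbOfCardLe (hfib.le) ⟨i, h⟩ else N + 1 + i
  have hfJ : ∀ i < k, f i ∈ J := by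
    intro i hi
    simp only [f, hi, dif_pos]
    exact Finset.orderEmbOfCardLe_mem _ _ _
  have hfN : ∀ i < k, f i < N + 1 := fun i hi =>
    Finset.mem_range.1 (Finset.mem_filter.1 (hfJ i hi)).1
  have hfs : ∀ i, f i + 1 ≤ f (i + 1) := by
    intro i
    by_cases h1 : i + 1 < k
    · have h0 : i < k := by omega
      have : f i < f (i + 1) := by
        simp only [f, h1, h0, dif_pos]
        exact (J.orderEmbOfCardLe (hfib.le)).strictMono (by simp [Fin.lt_def])
      omega
    · have h2 : f (i + 1) = N + 1 + (i + 1) := by simp only [f, h1, dif_neg, not_false_iff]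
      by_cases h0 : i < k
      · have := hfN i h0
        omega
      · have h3 : f i = N + 1 + i := by simp only [f, h0, dif_neg, not_false_iff]
        omega
  refine ⟨fun n => c (f (n / 2) + n % 2), ?_, ?_⟩
  · refine monotone_nat_of_le_succ fun n => c.monotone ?_
    rcases Nat.even_or_odd' n with ⟨m, rfl | rfl⟩
    · have h1 : 2 * m / 2 = m := by omega
      have h2 : (2 * m + 1) / 2 = m := by omega
      have h3 : 2 * m % 2 = 0 := by omega
      have h4 : (2 * m + 1) % 2 = 1 := by omega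
      rw [h1, h2, h3, h4]; omega
    · have h1 : (2 * m + 1) / 2 = m := by omega
      have h2 : (2 * m + 1 + 1) / 2 = m + 1 := by omega
      have h3 : (2 * m + 1) % 2 = 1 := by omega
      have h4 : (2 * m + 1 + 1) % 2 = 0 := by omega
      rw [h1, h2, h3, h4]
      have := hfs m
      omega
  · intro i hi
    have h1 : 2 * i / 2 = i := by omega
    have h2 : (2 * i + 1) / 2 = i := by omega
    have h3 : 2 * i % 2 = 0 := by omega
    have h4 : (2 * i + 1) % 2 = 1 := by omega
    simp only [h1, h2, h3, h4, add_zero]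
    have hfi := Finset.mem_filter.1 (hfJ i hi)
    have hin : dist (g (c (f i))) y0 ≤ e / 4 := by
      have := hy (g (c (f i))) (hnorm _)
      rwa [hfi.2] at this
    refine ⟨hin, ?_⟩
    have hs := hstep (f i) (hfN i hi)
    have htri : dist (g (c (f i + 1))) (g (c (f i))) ≤
        dist (g (c (f i + 1))) y0 + dist (g (c (f i))) y0 := by
      rw [dist_comm (g (c (f i)))]; exact dist_triangle _ _ _
    linarith

end Vale.Agent.P153.R2.C1
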