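import Vale.Agent.P153.R2.C1.Defs

/-!
# P153 / R2 / C1 : statements
-/

open MeasureTheory Set Filter Topology unitInterval

namespace Vale.Agent.P153.R2.C1

/-- TIGHTNESS + PROKHOROV (main output of C1). There is a canonical reparametrisation
`ρ g = g ∘ φ_g`, continuous in `g` (so Borel), such that: if `μ n` are Borel probability laws of
curves in a fixed ball, and for every FIXED annulus `A(y; r, 3r)` the number of crossings is tight
(eventually in `n`), then the laws of `ρ g` under `μ n` are tight on `C(unitInterval, ℂ)`. -/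
def S_tight : Prop :=
  ∃ ρ : C(unitInterval, ℂ) → C(unitInterval, ℂ), Continuous ρ ∧
    (∀ g, ∃ φ : unitInterval ≃o unitInterval, ρ g = reparam g φ) ∧
    ∀ [MeasurableSpace C(unitInterval, ℂ)] [BorelSpace C(unitInterval, ℂ)]
      (μ : ℕ → Measure C(unitInterval, ℂ)) (_ : ∀ n, IsProbabilityMeasure (μ n)) (R : ℝ),
      (∀ n, ∀ᵐ g ∂(μ n), ∀ t, ‖g t‖ ≤ R) →
      (∀ (y : ℂ) (r : ℝ), 0 < r → ∀ η : ENNReal, 0 < η →
        ∃ k : ℕ, ∀ᶠ n in atTop, μ n {g | Cross g y r (3 * r) k} ≤ η) →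
      IsTightMeasureSet (range fun n => (μ n).map ρ)

/-- SUBSEQUENCE (joint version). Random curves `X n` (in a fixed ball, crossing numbers of fixed
annuli tight) and random elements `W n` of a Polish space `E` with tight laws, defined on the same
probability spaces: along a subsequence the joint laws of `(ρ (X n), W n)` converge weakly. -/
def S_joint : Prop :=
  ∃ ρ : C(unitInterval, ℂ) → C(unitInterval, ℂ), Continuous ρ ∧
    (∀ g, ∃ φ : unitInterval ≃o unitInterval, ρ g = reparam g φ) ∧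
    ∀ [MeasurableSpace C(unitInterval, ℂ)] [BorelSpace C(unitInterval, ℂ)]
      {E : Type} [TopologicalSpace E] [PolishSpace E] [MeasurableSpace E] [BorelSpace E]
      (Ω : ℕ → Type) [∀ n, MeasurableSpace (Ω n)] (P : ∀ n, Measure (Ω n))
      (_ : ∀ n, IsProbabilityMeasure (P n))
      (X : ∀ n, Ω n → C(unitInterval, ℂ)) (_ : ∀ n, Measurable (X n))
      (W : ∀ n, Ω n → E) (_ : ∀ n, Measurable (W n)) (R : ℝ),
      (∀ n, ∀ᵐ ω ∂(P n), ∀ t, ‖X n ω t‖ ≤ R) →
      (∀ (y : ℂ) (r : ℝ), 0 < r → ∀ η : ENNReal, 0 < η →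
        ∃ k : ℕ, ∀ᶠ n in atTop, P n {ω | Cross (X n ω) y r (3 * r) k} ≤ η) →
      IsTightMeasureSet (range fun n => (P n).map (W n)) →
      ∀ ψ : ℕ → ℕ, StrictMono ψ → ∃ (θ : ℕ → ℕ) (_ : StrictMono θ)
        (μ : Measure (C(unitInterval, ℂ) × E)) (_ : IsProbabilityMeasure μ),
        ∀ f : C(unitInterval, ℂ) × E → ℝ, Continuous f → (∃ C, ∀ x, |f x| ≤ C) →
          Tendsto (fun n => ∫ ω, f (ρ (X (ψ (θ n)) ω), W (ψ (θ n)) ω) ∂(P (ψ (θ n)))) atTop
            (𝓝 (∫ x, f x ∂μ))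

/-- SUPPORT LEMMA (replaces Skorokhod's representation). If laws `μ n → μ` weakly on a second
countable space and `G n` are ARBITRARY sets with `μ n (G n)ᶜ → 0` (outer measure), then `μ`-almost
every point is a limit of points `x n ∈ G n`. -/
def S_support : Prop :=
  ∀ {E : Type} [TopologicalSpace E] [PolishSpace E] [MeasurableSpace E] [BorelSpace E]
    (μ : ℕ → Measure E) (_ : ∀ n, IsProbabilityMeasure (μ n)) (ν : Measure E)
    (_ : IsProbabilityMeasure ν),
    (∀ f : E → ℝ, Continuous f → (∃ C, ∀ x, |f x| ≤ C) →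
      Tendsto (fun n => ∫ x, f x ∂(μ n)) atTop (𝓝 (∫ x, f x ∂ν))) →
    ∀ G : ℕ → Set E, Tendsto (fun n => μ n (G n)ᶜ) atTop (𝓝 0) →
      ∀ᵐ x ∂ν, ∃ u : ℕ → E, (∀ᶠ n in atTop, u n ∈ G n) ∧ Tendsto u atTop (𝓝 x)

/-- GRAPH UNIQUENESS. Two laws on `X × Y` with the same `Y`-marginal, both carried by an arbitrary
set `G` whose fibres over `Y` have at most one point, coincide. -/
def S_graph : Prop :=
  ∀ {X Y : Type} [TopologicalSpace X] [PolishSpace X] [MeasurableSpace X] [BorelSpace X]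
    [TopologicalSpace Y] [PolishSpace Y] [MeasurableSpace Y] [BorelSpace Y]
    (μ ν : Measure (X × Y)) (_ : IsProbabilityMeasure μ) (_ : IsProbabilityMeasure ν)
    (G : Set (X × Y)), μ.map Prod.snd = ν.map Prod.snd → (∀ᵐ p ∂μ, p ∈ G) → (∀ᵐ p ∂ν, p ∈ G) →
    (∀ x x' y, (x, y) ∈ G → (x', y) ∈ G → x = x') → μ = ν

end Vale.Agent.P153.R2.C1
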