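import Vale.Agent.P153.R2.C1.Modulus
import Vale.Agent.P153.R2.C1.Stmt
import Mathlib.MeasureTheory.Measure.Tight
import Mathlib.Probability.Kernel.Disintegration.StandardBorel
import Mathlib.MeasureTheory.Measure.Support
import Mathlib.MeasureTheory.Measure.Portmanteau
import Mathlib.Topology.ContinuousMap.SecondCountableSpace

/-!
# P153 / R2 / C1 : tightness from crossing numbers of fixed annuli; weak limits
-/

open MeasureTheory Set Filter Topology unitInterval
open scoped ENNReal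

namespace Vale.Agent.P153.R2.C1

lemma Cross.mono_k {g : C(unitInterval, ℂ)} {y : ℂ} {r r' : ℝ} {k l : ℕ} (h : Cross g y r r' l)
    (hkl : k ≤ l) : Cross g y r r' k := by
  obtain ⟨t, ht, h⟩ := h
  exact ⟨t, ht, fun i hi => h i (hi.trans_le hkl)⟩

lemma Cross.of_dist {g g' : C(unitInterval, ℂ)} {y : ℂ} {r r' : ℝ} {k : ℕ}
    (h : Cross g y r r' k) {d : ℝ} (hd : dist g g' ≤ d) : Cross g' y (r + d) (r' - d) k := by
  obtain ⟨t, ht, h⟩ := h
  refine ⟨t, ht, fun i hi => ?_⟩
  have h1 : ∀ x, dist (g x) (g' x) ≤ d := fun x => (ContinuousMap.dist_apply_le_dist x).trans hd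
  have h2 := h i hi
  constructor
  · have := dist_triangle (g' (t (2 * i))) (g (t (2 * i))) y
    have h3 := h1 (t (2 * i))
    rw [dist_comm] at h3
    linarith [h2.1]
  · have := dist_triangle (g (t (2 * i + 1))) (g' (t (2 * i + 1))) y
    have h3 := h1 (t (2 * i + 1))
    linarith [h2.2]

lemma exists_not_cross (g : C(unitInterval, ℂ)) (y : ℂ) {r r' : ℝ} (h : r < r') :
    ∃ k, ¬ Cross g y r r' k := by
  have hu : UniformContinuous g := CompactSpace.uniformContinuous_of_continuous g.continuous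
  obtain ⟨δ, hδ, H⟩ := Metric.uniformContinuous_iff.1 hu (r' - r) (by linarith)
  obtain ⟨k, hk⟩ := exists_nat_gt (1 / δ)
  refine ⟨k, ?_⟩
  rintro ⟨t, ht, hc⟩
  have hstep : ∀ i < k, δ ≤ (t (2 * i + 1) : ℝ) - t (2 * i) := by
    intro i hi
    by_contra hcon
    rw [not_le] at hcon
    have hle : (t (2 * i) : ℝ) ≤ t (2 * i + 1) := ht (Nat.le_succ _)
    have h1 : dist (t (2 * i + 1)) (t (2 * i)) < δ := by
      rw [Subtype.dist_eq, Real.dist_eq, abs_of_nonneg (by linarith)]; exact hcon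
    have h2 := H h1
    have h3 := hc i hi
    have h4 := dist_triangle (g (t (2 * i + 1))) (g (t (2 * i))) y
    linarith [h3.1, h3.2]
  have hind : ∀ i ≤ k, (i : ℝ) * δ ≤ t (2 * i) := by
    intro i
    induction i with
    | zero => intro _; simpa using (t 0).2.1
    | succ i ih =>
      intro hi
      have h1 := ih (by omega)
      have h2 := hstep i (by omega)
      have h3 : (t (2 * i + 1) : ℝ) ≤ t (2 * (i + 1)) := ht (by omega)
      push_cast
      linarith
  have h1 := hind k le_rfl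
  have h2 : (t (2 * k) : ℝ) ≤ 1 := (t (2 * k)).2.2
  rw [div_lt_iff₀ hδ] at hk
  linarith

/-- A compact set of curves crosses a fixed annulus a bounded number of times. -/
lemma exists_not_cross_compact {K : Set C(unitInterval, ℂ)} (hK : IsCompact K) (y : ℂ) {r r' : ℝ}
    (h : r < r') : ∃ k, ∀ g ∈ K, ¬ Cross g y r r' k := by
  classical
  set d := (r' - r) / 4 with hd
  have hd0 : 0 < d := by rw [hd]; linarith
  obtain ⟨T, hTK, hTf, hT⟩ := hK.finite_cover_balls hd0
  have hk := fun g : C(unitInterval, ℂ) => exists_not_cross g y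
    (show r + d < r' - d by rw [hd]; linarith)
  choose k hk using hk
  refine ⟨hTf.toFinset.sup k, fun g hg hc => ?_⟩
  obtain ⟨g', hg', hgg'⟩ := mem_iUnion₂.1 (hT hg)
  refine hk g' ?_
  exact (hc.of_dist (le_of_lt (Metric.mem_ball.1 hgg'))).mono_k
    (Finset.le_sup (f := k) (hTf.mem_toFinset.2 hg'))

lemma exists_net (R e : ℝ) (he : 0 < e) :
    ∃ Y : Finset ℂ, ∀ z : ℂ, ‖z‖ ≤ R → ∃ y ∈ Y, dist z y ≤ e := by
  obtain ⟨T, -, hTf, hT⟩ := (isCompact_closedBall (0 : ℂ) R).finite_cover_balls he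
  refine ⟨hTf.toFinset, fun z hz => ?_⟩
  obtain ⟨y, hy, hzy⟩ := mem_iUnion₂.1 (hT (by simpa using hz))
  exact ⟨y, hTf.mem_toFinset.2 hy, (Metric.mem_ball.1 hzy).le⟩

theorem tight_main [MeasurableSpace C(unitInterval, ℂ)] [BorelSpace C(unitInterval, ℂ)]
    (Ω : ℕ → Type*) [∀ n, MeasurableSpace (Ω n)] (P : ∀ n, Measure (Ω n))
    [∀ n, IsProbabilityMeasure (P n)] (X : ∀ n, Ω n → C(unitInterval, ℂ))
    (hX : ∀ n, Measurable (X n)) (R : ℝ) (hR : ∀ n, ∀ᵐ ω ∂(P n), ∀ t, ‖X n ω t‖ ≤ R)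
    (hx : ∀ (y : ℂ) (r : ℝ), 0 < r → ∀ η : ℝ≥0∞, 0 < η →
      ∃ k : ℕ, ∀ᶠ n in atTop, P n {ω | Cross (X n ω) y r (3 * r) k} ≤ η) :
    IsTightMeasureSet (range fun n => (P n).map (fun ω => rho (X n ω))) := by
  classical
  -- uniform version of the crossing hypothesis
  have hx' : ∀ (y : ℂ) (r : ℝ), 0 < r → ∀ η : ℝ≥0∞, 0 < η →
      ∃ k : ℕ, ∀ n, P n {ω | Cross (X n ω) y r (3 * r) k} ≤ η := by
    intro y r hr η hη
    obtain ⟨k, hk⟩ := hx y r hr η hη
    obtain ⟨n0, hn0⟩ := eventually_atTop.1 hk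
    have h1 : ∀ n, ∃ k, P n {ω | Cross (X n ω) y r (3 * r) k} ≤ η := by
      intro n
      have ht : IsTightMeasureSet {(P n).map (X n)} := isTightMeasureSet_singleton
      obtain ⟨K, hK, hKle⟩ := isTightMeasureSet_iff_exists_isCompact_measure_compl_le.1 ht η hη
      obtain ⟨k, hk⟩ := exists_not_cross_compact hK y (show r < 3 * r by linarith)
      refine ⟨k, ?_⟩
      have h2 := hKle _ rfl
      rw [Measure.map_apply (hX n) hK.measurableSet.compl] at h2
      refine (measure_mono fun ω hω => ?_).trans h2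
      intro hmem
      exact hk _ hmem hω
    choose k' hk' using h1
    refine ⟨max k ((Finset.range n0).sup k'), fun n => ?_⟩
    by_cases hn : n < n0
    · refine (measure_mono fun ω hω => ?_).trans (hk' n)
      exact Cross.mono_k hω (le_max_of_le_right (Finset.le_sup (f := k') (Finset.mem_range.2 hn)))
    · refine (measure_mono fun ω hω => ?_).trans (hn0 n (not_lt.1 hn))
      exact Cross.mono_k hω (le_max_left _ _)
  set R' := max R 0 with hR'
  rw [isTightMeasureSet_iff_exists_isCompact_measure_compl_le]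
  intro η hη
  -- scales
  have he : ∀ j : ℕ, (0 : ℝ) < 1 / (8 * ((j : ℝ) + 1)) := fun j => by positivity
  choose Y hY using fun j : ℕ => exists_net R' (1 / (8 * ((j : ℝ) + 1)) / 4) (by have := he j; linarith)
  obtain ⟨ε', hε'pos, hε'sum⟩ := ENNReal.exists_pos_sum_of_countable' hη.ne' ℕ
  have hη' : ∀ j, 0 < ε' j / ((Y j).card + 1) := fun j =>
    ENNReal.div_pos (hε'pos j).ne' (by finiteness)
  have hk := fun (j : ℕ) (y : ℂ) => hx' y (1 / (8 * ((j : ℝ) + 1)) / 4)
    (by have := he j; linarith) _ (hη' j)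
  choose k hk using hk
  let kk : ℕ → ℕ := fun j => (Y j).sup (k j)
  let N : ℕ → ℕ := fun j => (Y j).card * kk j
  let ε : ℕ → ℝ := fun j => 1 / ((j : ℝ) + 1)
  have hε0 : ∀ j, 0 < ε j := fun j => by simp only [ε]; positivity
  refine ⟨KK R' (fun j => cc R' (N j) (ε j)) ε, ?_, ?_⟩
  · refine isCompact_KK _ _ _ (fun j => cc_pos (le_max_right _ _) _ (hε0 j)) fun e he => ?_
    obtain ⟨j, hj⟩ := exists_nat_one_div_lt he
    exact ⟨j, hj⟩
  · rintro _ ⟨n, rfl⟩
    have hK : IsCompact (KK R' (fun j => cc R' (N j) (ε j)) ε) :=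
      isCompact_KK _ _ _ (fun j => cc_pos (le_max_right _ _) _ (hε0 j)) fun e he => by
        obtain ⟨j, hj⟩ := exists_nat_one_div_lt he
        exact ⟨j, hj⟩
    have hmeas : Measurable fun ω => rho (X n ω) := rho_continuous.measurable.comp (hX n)
    simp only
    rw [Measure.map_apply hmeas hK.measurableSet.compl]
    have hsub : (fun ω => rho (X n ω)) ⁻¹' (KK R' (fun j => cc R' (N j) (ε j)) ε)ᶜ ⊆
        {ω | ¬ ∀ t, ‖X n ω t‖ ≤ R} ∪
        ⋃ j : ℕ, ⋃ y ∈ Y j, {ω | Cross (X n ω) y (1 / (8 * ((j : ℝ) + 1)) / 4)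
          (3 * (1 / (8 * ((j : ℝ) + 1)) / 4)) (k j y)} := by
      intro ω hω
      by_contra hcon
      simp only [mem_union, mem_iUnion, mem_ofPred_eq, not_or, not_not, not_exists] at hcon
      obtain ⟨h1, h2⟩ := hcon
      refine hω ⟨fun t => ?_, fun j u v huv => ?_⟩
      · exact (h1 _).trans (le_max_left _ _)
      · have hnorm : ‖X n ω‖ ≤ R' := (ContinuousMap.norm_le _ (le_max_right _ _)).2
          fun t => (h1 t).trans (le_max_left _ _)
        have hw : wh (X n ω) (N j) 1 ≤ 1 / (8 * ((j : ℝ) + 1)) := by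
          refine wh_le_of_cross (X n ω) hnorm (Y j) (hY j) (kk j) fun y hy hc => ?_
          exact h2 j y hy (hc.mono_k (Finset.le_sup (f := k j) hy))
        have hw' : wh (X n ω) (N j) 1 ≤ ε j / 8 := by
          refine hw.trans (le_of_eq ?_)
          simp only [ε]
          field_simp
        exact (rho_modulus (X n ω) hnorm (hε0 j) (N j) hw' huv).le
    refine (measure_mono hsub).trans ((measure_union_le _ _).trans ?_)
    have hz : P n {ω | ¬ ∀ t, ‖X n ω t‖ ≤ R} = 0 := hR n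
    rw [hz, zero_add]
    refine (measure_iUnion_le _).trans (le_trans (ENNReal.tsum_le_tsum fun j => ?_) hε'sum.le)
    refine (measure_biUnion_finset_le _ _).trans ?_
    refine (Finset.sum_le_sum fun y _ => hk j y n).trans ?_
    rw [Finset.sum_const, nsmul_eq_mul]
    calc ((Y j).card : ℝ≥0∞) * (ε' j / ((Y j).card + 1))
        ≤ ((Y j).card + 1 : ℝ≥0∞) * (ε' j / ((Y j).card + 1)) := by gcongr; simp
      _ = ε' j := ENNReal.mul_div_cancel (by simp) (by finiteness)

theorem s_tight : S_tight := by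
  refine ⟨rho, rho_continuous, fun g => ⟨_, rfl⟩, ?_⟩
  intro _ _ μ hμ R hR hx
  exact tight_main (fun _ => C(unitInterval, ℂ)) μ (fun _ => id) (fun _ => measurable_id) R hR hx

end Vale.Agent.P153.R2.C1
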