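import Vale.Agent.P153.R2.C1.Tight

/-!
# P153 / R2 / C1 : weak limits (joint subsequential limits, support lemma, graph uniqueness)
-/

open MeasureTheory Set Filter Topology unitInterval ProbabilityTheory
open scoped ENNReal

namespace Vale.Agent.P153.R2.C1

/-- A probability measure as an element of `ProbabilityMeasure`. -/
def toPM {E : Type*} [MeasurableSpace E] (μ : Measure E) (h : IsProbabilityMeasure μ) :
    ProbabilityMeasure E := ⟨μ, h⟩

lemma tendsto_pm {E : Type*} [TopologicalSpace E] [MeasurableSpace E] [OpensMeasurableSpace E]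
    (μ : ℕ → Measure E) (hμ : ∀ n, IsProbabilityMeasure (μ n)) (ν : Measure E)
    (hν : IsProbabilityMeasure ν)
    (h : ∀ f : E → ℝ, Continuous f → (∃ C, ∀ x, |f x| ≤ C) →
      Tendsto (fun n => ∫ x, f x ∂(μ n)) atTop (𝓝 (∫ x, f x ∂ν))) :
    Tendsto (fun n => toPM (μ n) (hμ n)) atTop (𝓝 (toPM ν hν)) := by
  rw [ProbabilityMeasure.tendsto_iff_forall_integral_tendsto]
  intro f
  exact h f f.continuous ⟨‖f‖, fun x => f.norm_coe_le_norm x⟩

theorem support_lemma {E : Type*} [PseudoMetricSpace E] [SecondCountableTopology E]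
    [MeasurableSpace E] [BorelSpace E]
    (μ : ℕ → ProbabilityMeasure E) (ν : ProbabilityMeasure E) (h : Tendsto μ atTop (𝓝 ν))
    (G : ℕ → Set E) (hG : Tendsto (fun n => (μ n : Measure E) (G n)ᶜ) atTop (𝓝 0)) :
    ∀ᵐ x ∂(ν : Measure E), ∃ u : ℕ → E, (∀ᶠ n in atTop, u n ∈ G n) ∧
      Tendsto u atTop (𝓝 x) := by
  have hsupp : (ν : Measure E).support ∈ ae (ν : Measure E) := Measure.support_mem_ae
  filter_upwards [hsupp] with x hx
  rw [Measure.mem_support_iff_forall] at hx
  -- every ball around `x` eventually meets `G n`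
  have key : ∀ ε > 0, ∀ᶠ n in atTop, (G n ∩ Metric.ball x ε).Nonempty := by
    intro ε hε
    have hpos : 0 < (ν : Measure E) (Metric.ball x ε) := hx _ (Metric.ball_mem_nhds x hε)
    have hlim := ProbabilityMeasure.le_liminf_measure_open_of_tendsto h
      (Metric.isOpen_ball (x := x) (ε := ε))
    obtain ⟨a, ha0, ha⟩ := exists_between hpos
    have h1 : ∀ᶠ n in atTop, a < (μ n : Measure E) (Metric.ball x ε) :=
      eventually_lt_of_lt_liminf (ha.trans_le hlim)
    have h2 : ∀ᶠ n in atTop, (μ n : Measure E) (G n)ᶜ < a := hG.eventually_lt_const ha0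
    filter_upwards [h1, h2] with n hn1 hn2
    by_contra hcon
    rw [Set.not_nonempty_iff_eq_empty] at hcon
    have hsub : Metric.ball x ε ⊆ (G n)ᶜ := by
      intro z hz hzG
      have : z ∈ G n ∩ Metric.ball x ε := ⟨hzG, hz⟩
      rw [hcon] at this
      exact this
    have := measure_mono (μ := (μ n : Measure E)) hsub
    exact absurd (hn1.trans_le this) (not_lt.2 hn2.le)
  classical
  have hu : ∀ n, ∃ z : E, (G n).Nonempty →
      z ∈ G n ∧ dist x z < Metric.infDist x (G n) + 1 / ((n : ℝ) + 1) := by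
    intro n
    by_cases hne : (G n).Nonempty
    · have hlt : Metric.infDist x (G n) < Metric.infDist x (G n) + 1 / ((n : ℝ) + 1) := by
        have : (0 : ℝ) < 1 / ((n : ℝ) + 1) := by positivity
        linarith
      obtain ⟨z, hz, hd⟩ := (Metric.infDist_lt_iff hne).1 hlt
      exact ⟨z, fun _ => ⟨hz, hd⟩⟩
    · exact ⟨x, fun h => absurd h hne⟩
  choose u hu using hu
  refine ⟨u, ?_, ?_⟩
  · filter_upwards [key 1 one_pos] with n hn
    exact (hu n (hn.mono inter_subset_left)).1
  · rw [Metric.tendsto_atTop']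
    intro ε hε
    have h1 := key (ε / 2) (by positivity)
    have h2 : ∀ᶠ n : ℕ in atTop, 1 / ((n : ℝ) + 1) < ε / 2 :=
      tendsto_one_div_add_atTop_nhds_zero_nat.eventually_lt_const (by positivity)
    obtain ⟨N, hN⟩ := eventually_atTop.1 (h1.and h2)
    refine ⟨N, fun n hn => ?_⟩
    obtain ⟨⟨z, hzG, hz⟩, hn2⟩ := hN n hn.le
    have h3 := (hu n ⟨z, hzG⟩).2
    have h4 : Metric.infDist x (G n) < ε / 2 :=
      (Metric.infDist_le_dist_of_mem hzG).trans_lt (by rw [dist_comm]; exact Metric.mem_ball.1 hz)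
    rw [dist_comm]
    linarith

theorem s_support : S_support := by
  intro E _ _ _ _ μ hμ ν hν h G hG
  let _ : MetricSpace E := TopologicalSpace.metrizableSpaceMetric E
  exact support_lemma (fun n => toPM (μ n) (hμ n)) (toPM ν hν) (tendsto_pm μ hμ ν hν h) G hG

/-- A probability measure with a.e. point in a subsingleton is a Dirac mass. -/
lemma eq_dirac_of_ae_subsingleton {X : Type*} [MeasurableSpace X] [MeasurableSingletonClass X]
    (κ : Measure X) [IsProbabilityMeasure κ] (x : X) (h : ∀ᵐ z ∂κ, z = x) :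
    κ = Measure.dirac x := by
  ext s hs
  rw [Measure.dirac_apply' _ hs]
  by_cases hx : x ∈ s
  · rw [indicator_of_mem hx, Pi.one_apply, ← measure_univ (μ := κ)]
    refine measure_congr ?_
    filter_upwards [h] with z hz
    rw [hz]
    exact eq_true (by exact hx) |>.trans (eq_true (mem_univ x)).symm
  · rw [indicator_of_notMem hx]
    refine measure_mono_null (fun z hz => ?_) h
    intro hzx
    exact hx (hzx ▸ hz)

theorem graph_unique {X Y : Type*} [MeasurableSpace X] [StandardBorelSpace X]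
    [MeasurableSpace Y] (μ ν : Measure (Y × X)) [IsProbabilityMeasure μ] [IsProbabilityMeasure ν]
    (G : Set (Y × X)) (hfst : μ.fst = ν.fst) (hμG : ∀ᵐ p ∂μ, p ∈ G) (hνG : ∀ᵐ p ∂ν, p ∈ G)
    (hG : ∀ x x' y, (y, x) ∈ G → (y, x') ∈ G → x = x') : μ = ν := by
  have : Nonempty X := by
    by_contra hne
    rw [not_nonempty_iff] at hne
    have : IsEmpty (Y × X) := Prod.isEmpty_right
    have h1 := measure_univ (μ := μ)
    rw [univ_eq_empty_iff.2 this, measure_empty] at h1
    exact zero_ne_one h1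
  have h1 : μ.fst ⊗ₘ μ.condKernel = μ := Measure.disintegrate μ _
  have h2 : ν.fst ⊗ₘ ν.condKernel = ν := Measure.disintegrate ν _
  have h3 : ∀ᵐ y ∂μ.fst, ∀ᵐ x ∂(μ.condKernel y), (y, x) ∈ G := by
    refine Measure.ae_ae_of_ae_compProd (p := fun p => p ∈ G) ?_
    rw [h1]; exact hμG
  have h4 : ∀ᵐ y ∂μ.fst, ∀ᵐ x ∂(ν.condKernel y), (y, x) ∈ G := by
    rw [hfst]
    refine Measure.ae_ae_of_ae_compProd (p := fun p => p ∈ G) ?_
    rw [h2]; exact hνG
  have h5 : μ.condKernel =ᵐ[μ.fst] ν.condKernel := by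
    filter_upwards [h3, h4] with y hy1 hy2
    obtain ⟨x, hx⟩ := hy1.exists
    have e1 : μ.condKernel y = Measure.dirac x :=
      eq_dirac_of_ae_subsingleton _ x (by filter_upwards [hy1] with z hz using hG z x y hz hx)
    have e2 : ν.condKernel y = Measure.dirac x :=
      eq_dirac_of_ae_subsingleton _ x (by filter_upwards [hy2] with z hz using hG z x y hz hx)
    rw [e1, e2]
  rw [← h1, ← h2, ← hfst]
  exact Measure.compProd_congr h5

theorem s_graph : S_graph := by
  intro X Y _ _ _ _ _ _ _ _ μ ν hμ hν G hsnd hμG hνG hG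
  have hswap : Measurable (Prod.swap : X × Y → Y × X) := measurable_swap
  have key : μ.map Prod.swap = ν.map Prod.swap := by
    have : IsProbabilityMeasure (μ.map Prod.swap) :=
      Measure.isProbabilityMeasure_map hswap.aemeasurable
    have : IsProbabilityMeasure (ν.map Prod.swap) :=
      Measure.isProbabilityMeasure_map hswap.aemeasurable
    refine graph_unique (μ.map Prod.swap) (ν.map Prod.swap) {p | (p.2, p.1) ∈ G} ?_ ?_ ?_ ?_
    · rw [Measure.fst, Measure.fst, Measure.map_map measurable_fst hswap,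
        Measure.map_map measurable_fst hswap]
      exact hsnd
    · exact (MeasurableEquiv.prodComm.measurableEmbedding.ae_map_iff (μ := μ)).2
        (by filter_upwards [hμG] with p hp using hp)
    · exact (MeasurableEquiv.prodComm.measurableEmbedding.ae_map_iff (μ := ν)).2
        (by filter_upwards [hνG] with p hp using hp)
    · intro x x' y h h'
      exact hG x x' y h h'
  have h2 : (μ.map Prod.swap).map Prod.swap = (ν.map Prod.swap).map Prod.swap := by rw [key]
  rw [Measure.map_map measurable_swap hswap, Measure.map_map measurable_swap hswap,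
    Prod.swap_swap_eq, Measure.map_id, Measure.map_id] at h2
  exact h2

/-- Sequential form of Prokhorov's theorem. -/
theorem exists_subseq {E : Type*} [TopologicalSpace E] [PolishSpace E] [MeasurableSpace E]
    [BorelSpace E] (μ : ℕ → Measure E) (hμ : ∀ n, IsProbabilityMeasure (μ n))
    (ht : IsTightMeasureSet (range μ)) :
    ∃ (θ : ℕ → ℕ) (_ : StrictMono θ) (ν : Measure E) (_ : IsProbabilityMeasure ν),
      ∀ f : E → ℝ, Continuous f → (∃ C, ∀ x, |f x| ≤ C) →
        Tendsto (fun n => ∫ x, f x ∂(μ (θ n))) atTop (𝓝 (∫ x, f x ∂ν)) := by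
  let p : ℕ → ProbabilityMeasure E := fun n => toPM (μ n) (hμ n)
  have hc : IsCompact (closure (range p)) := by
    refine isCompact_closure_of_isTightMeasureSet ?_
    refine ht.subset ?_
    rintro _ ⟨q, ⟨n, rfl⟩, rfl⟩
    exact ⟨n, rfl⟩
  obtain ⟨ν, -, θ, hθ, hlim⟩ := hc.tendsto_subseq (x := p) fun n => subset_closure ⟨n, rfl⟩
  refine ⟨θ, hθ, ν, inferInstance, fun f hf hC => ?_⟩
  obtain ⟨C, hC⟩ := hC
  have h := (ProbabilityMeasure.tendsto_iff_forall_integral_tendsto.1 hlim)
    (BoundedContinuousFunction.ofNormedAddCommGroup f hf C hC)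
  exact h

theorem joint_main [MeasurableSpace C(unitInterval, ℂ)] [BorelSpace C(unitInterval, ℂ)]
    {E : Type*} [TopologicalSpace E] [PolishSpace E] [MeasurableSpace E] [BorelSpace E]
    (Ω : ℕ → Type*) [∀ n, MeasurableSpace (Ω n)] (P : ∀ n, Measure (Ω n))
    (hP : ∀ n, IsProbabilityMeasure (P n))
    (X : ∀ n, Ω n → C(unitInterval, ℂ)) (hX : ∀ n, Measurable (X n))
    (W : ∀ n, Ω n → E) (hW : ∀ n, Measurable (W n)) (R : ℝ)
    (hR : ∀ n, ∀ᵐ ω ∂(P n), ∀ t, ‖X n ω t‖ ≤ R)
    (hx : ∀ (y : ℂ) (r : ℝ), 0 < r → ∀ η : ENNReal, 0 < η →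
      ∃ k : ℕ, ∀ᶠ n in atTop, P n {ω | Cross (X n ω) y r (3 * r) k} ≤ η)
    (ht : IsTightMeasureSet (range fun n => (P n).map (W n)))
    (ψ : ℕ → ℕ) : ∃ (θ : ℕ → ℕ) (_ : StrictMono θ)
      (μ : Measure (C(unitInterval, ℂ) × E)) (_ : IsProbabilityMeasure μ),
      ∀ f : C(unitInterval, ℂ) × E → ℝ, Continuous f → (∃ C, ∀ x, |f x| ≤ C) →
        Tendsto (fun n => ∫ ω, f (rho (X (ψ (θ n)) ω), W (ψ (θ n)) ω) ∂(P (ψ (θ n)))) atTop
          (𝓝 (∫ x, f x ∂μ)) := by
  have hrX : ∀ n, Measurable fun ω => rho (X n ω) := fun n => rho_continuous.measurable.comp (hX n)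
  have hmeas : ∀ n, Measurable fun ω => (rho (X n ω), W n ω) := fun n => (hrX n).prodMk (hW n)
  have hT1 := tight_main Ω P X hX R hR hx
  have hT : IsTightMeasureSet (range fun n => (P (ψ n)).map (fun ω => (rho (X (ψ n) ω), W (ψ n) ω))) := by
    refine IsTightMeasureSet.prodMk (hT1.subset ?_) (ht.subset ?_)
    · rintro _ ⟨_, ⟨n, rfl⟩, rfl⟩
      refine ⟨ψ n, ?_⟩
      simp only
      rw [Measure.fst, Measure.map_map measurable_fst (hmeas _)]
      rfl
    · rintro _ ⟨_, ⟨n, rfl⟩, rfl⟩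
      refine ⟨ψ n, ?_⟩
      simp only
      rw [Measure.snd, Measure.map_map measurable_snd (hmeas _)]
      rfl
  obtain ⟨θ, hθ, μ, hμ, h⟩ := exists_subseq _
    (fun n => Measure.isProbabilityMeasure_map (hmeas (ψ n)).aemeasurable) hT
  refine ⟨θ, hθ, μ, hμ, fun f hf hC => ?_⟩
  have h1 := h f hf hC
  refine h1.congr fun n => ?_
  exact integral_map (hmeas _).aemeasurable hf.aestronglyMeasurable

theorem s_joint : S_joint := by
  refine ⟨rho, rho_continuous, fun g => ⟨_, rfl⟩, ?_⟩
  intro _ _ E _ _ _ _ Ω _ P hP X hX W hW R hR hx ht ψ _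
  exact joint_main Ω P hP X hX W hW R hR hx ht ψ

end Vale.Agent.P153.R2.C1
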