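import Vale.Agent.P153.R2.C1.Defs
import Mathlib.Analysis.SpecificLimits.Basic
import Mathlib.Topology.Algebra.InfiniteSum.Real
import Mathlib.Analysis.Normed.Group.FunctionSeries

/-!
# P153 / R2 / C1 : Whitney's length function and the canonical reparametrisation
-/

open Set Filter Topology unitInterval

namespace Vale.Agent.P153.R2.C1

/-- The smallest of the first `n + 1` steps of `g` along the chain `s` truncated at `t`. -/
noncomputable def step (g : C(unitInterval, ℂ)) (n : ℕ) (s : ℕ →o unitInterval)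
    (t : unitInterval) : ℝ :=
  ⨅ i : Fin (n + 1), dist (g (s (i + 1) ⊓ t)) (g (s i ⊓ t))

/-- Whitney's function: the largest `a` such that `g` makes `n + 1` consecutive steps of size
`≥ a` before time `t`. -/
noncomputable def wh (g : C(unitInterval, ℂ)) (n : ℕ) (t : unitInterval) : ℝ :=
  ⨆ s : ℕ →o unitInterval, step g n s t

lemma step_nonneg (g : C(unitInterval, ℂ)) (n : ℕ) (s : ℕ →o unitInterval) (t : unitInterval) :
    0 ≤ step g n s t := Real.iInf_nonneg fun _ => dist_nonneg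

lemma step_le (g : C(unitInterval, ℂ)) {n : ℕ} (s : ℕ →o unitInterval) (t : unitInterval)
    {i : ℕ} (hi : i < n + 1) : step g n s t ≤ dist (g (s (i + 1) ⊓ t)) (g (s i ⊓ t)) :=
  ciInf_le (f := fun i : Fin (n + 1) => dist (g (s (i + 1) ⊓ t)) (g (s i ⊓ t)))
    ⟨0, by rintro _ ⟨i, rfl⟩; exact dist_nonneg⟩ ⟨i, hi⟩

lemma le_step (g : C(unitInterval, ℂ)) {n : ℕ} (s : ℕ →o unitInterval) (t : unitInterval) {a : ℝ}
    (h : ∀ i < n + 1, a ≤ dist (g (s (i + 1) ⊓ t)) (g (s i ⊓ t))) : a ≤ step g n s t :=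
  le_ciInf fun i => h i i.2

lemma dist_le_two (g : C(unitInterval, ℂ)) (x y : unitInterval) : dist (g x) (g y) ≤ 2 * ‖g‖ := by
  rw [dist_eq_norm]
  calc ‖g x - g y‖ ≤ ‖g x‖ + ‖g y‖ := norm_sub_le _ _
    _ ≤ ‖g‖ + ‖g‖ := add_le_add (g.norm_coe_le_norm x) (g.norm_coe_le_norm y)
    _ = 2 * ‖g‖ := by ring

lemma step_le_two (g : C(unitInterval, ℂ)) (n : ℕ) (s : ℕ →o unitInterval) (t : unitInterval) :
    step g n s t ≤ 2 * ‖g‖ :=
  (step_le g s t (Nat.succ_pos n)).trans (dist_le_two g _ _)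

lemma bdd_step (g : C(unitInterval, ℂ)) (n : ℕ) (t : unitInterval) :
    BddAbove (range fun s : ℕ →o unitInterval => step g n s t) :=
  ⟨2 * ‖g‖, by rintro _ ⟨s, rfl⟩; exact step_le_two g n s t⟩

lemma step_le_wh (g : C(unitInterval, ℂ)) (n : ℕ) (s : ℕ →o unitInterval) (t : unitInterval) :
    step g n s t ≤ wh g n t := le_ciSup (bdd_step g n t) s

lemma wh_nonneg (g : C(unitInterval, ℂ)) (n : ℕ) (t : unitInterval) : 0 ≤ wh g n t :=
  (step_nonneg g n ⊥ t).trans (step_le_wh g n ⊥ t)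

lemma wh_le_two (g : C(unitInterval, ℂ)) (n : ℕ) (t : unitInterval) : wh g n t ≤ 2 * ‖g‖ :=
  ciSup_le fun s => step_le_two g n s t

/-- The chain `s` truncated at `t`. -/
def trunc (s : ℕ →o unitInterval) (t : unitInterval) : ℕ →o unitInterval :=
  ⟨fun i => s i ⊓ t, fun _ _ h => inf_le_inf_right t (s.monotone h)⟩

lemma wh_mono (g : C(unitInterval, ℂ)) (n : ℕ) : Monotone (wh g n) := by
  intro t t' h
  refine ciSup_le fun s => ?_
  refine le_trans (le_of_eq ?_) (step_le_wh g n (trunc s t) t')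
  unfold step
  congr 1
  funext i
  have : ∀ j, trunc s t j ⊓ t' = s j ⊓ t := fun j => by
    change (s j ⊓ t) ⊓ t' = s j ⊓ t
    rw [inf_assoc, inf_eq_left.2 h]
  rw [this, this]

lemma wh_zero (g : C(unitInterval, ℂ)) (n : ℕ) : wh g n 0 = 0 := by
  refine le_antisymm (ciSup_le fun s => ?_) (wh_nonneg g n 0)
  refine (step_le g s 0 (Nat.succ_pos n)).trans ?_
  have : ∀ j, s j ⊓ 0 = 0 := fun j => inf_eq_right.2 (s j).2.1
  rw [this, this, dist_self]

lemma wh_le_of (g g' : C(unitInterval, ℂ)) (n : ℕ) (t t' : unitInterval) (c : ℝ)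
    (h : ∀ x : unitInterval, dist (g (x ⊓ t)) (g' (x ⊓ t')) ≤ c) :
    wh g n t ≤ wh g' n t' + 2 * c := by
  refine ciSup_le fun s => ?_
  have h1 : step g n s t - 2 * c ≤ step g' n s t' := by
    refine le_step g' s t' fun i hi => ?_
    have h2 := step_le g s t hi
    have h3 : dist (g (s (i + 1) ⊓ t)) (g (s i ⊓ t)) ≤
        dist (g (s (i + 1) ⊓ t)) (g' (s (i + 1) ⊓ t')) +
        dist (g' (s (i + 1) ⊓ t')) (g' (s i ⊓ t')) + dist (g' (s i ⊓ t')) (g (s i ⊓ t)) :=
      dist_triangle4 _ _ _ _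
    have h4 := h (s (i + 1))
    have h5 := h (s i)
    rw [dist_comm] at h5
    linarith
  have h6 := step_le_wh g' n s t'
  linarith

lemma dist_inf_le (x t t' : unitInterval) : dist (x ⊓ t) (x ⊓ t') ≤ dist t t' := by
  rw [Subtype.dist_eq, Subtype.dist_eq, Real.dist_eq, Real.dist_eq]
  have h1 : ((x ⊓ t : unitInterval) : ℝ) = min (x : ℝ) t := by
    rcases le_total x t with h | h
    · rw [inf_eq_left.2 h, min_eq_left (by exact_mod_cast h)]
    · rw [inf_eq_right.2 h, min_eq_right (by exact_mod_cast h)]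
  have h2 : ((x ⊓ t' : unitInterval) : ℝ) = min (x : ℝ) t' := by
    rcases le_total x t' with h | h
    · rw [inf_eq_left.2 h, min_eq_left (by exact_mod_cast h)]
    · rw [inf_eq_right.2 h, min_eq_right (by exact_mod_cast h)]
  rw [h1, h2]
  exact (abs_min_sub_min_le_max _ _ _ _).trans (by simp)

lemma wh_continuous (g : C(unitInterval, ℂ)) (n : ℕ) : Continuous (wh g n) := by
  rw [Metric.continuous_iff]
  intro t ε hε
  have hu : UniformContinuous g := CompactSpace.uniformContinuous_of_continuous g.continuous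
  obtain ⟨δ, hδ, h⟩ := Metric.uniformContinuous_iff.1 hu (ε / 4) (by positivity)
  refine ⟨δ, hδ, fun t' ht' => ?_⟩
  have h1 : ∀ x : unitInterval, dist (g (x ⊓ t')) (g (x ⊓ t)) ≤ ε / 4 := fun x =>
    (h ((dist_inf_le x t' t).trans_lt ht')).le
  have h2 := wh_le_of g g n t' t (ε / 4) h1
  have h3 := wh_le_of g g n t t' (ε / 4) (fun x => by rw [dist_comm]; exact h1 x)
  rw [Real.dist_eq, abs_lt]
  constructor <;> linarith

lemma wh_dist (g g' : C(unitInterval, ℂ)) (n : ℕ) (t : unitInterval) :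
    |wh g n t - wh g' n t| ≤ 2 * dist g g' := by
  have h1 := wh_le_of g g' n t t (dist g g') (fun x => ContinuousMap.dist_apply_le_dist _)
  have h2 := wh_le_of g' g n t t (dist g g')
    (fun x => by rw [dist_comm g g']; exact ContinuousMap.dist_apply_le_dist _)
  rw [abs_le]
  constructor <;> linarith

/-- The new time: `t` plus the weighted sum of Whitney's functions. -/
noncomputable def tau (g : C(unitInterval, ℂ)) (t : unitInterval) : ℝ :=
  (t : ℝ) + ∑' n : ℕ, (1 / 2 : ℝ) ^ (n + 1) * wh g n t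

lemma summable_half : Summable fun n : ℕ => (1 / 2 : ℝ) ^ (n + 1) := by
  have := summable_geometric_two.mul_left (1 / 2 : ℝ)
  refine this.congr fun n => ?_
  rw [pow_succ]; ring

lemma tsum_half : ∑' n : ℕ, (1 / 2 : ℝ) ^ (n + 1) = 1 := by
  have h := tsum_geometric_two
  have : (fun n : ℕ => (1 / 2 : ℝ) ^ (n + 1)) = fun n : ℕ => (1 / 2 : ℝ) * (1 / 2 : ℝ) ^ n := by
    funext n; rw [pow_succ]; ring
  rw [this, tsum_mul_left, h]; norm_num

lemma summable_wh (g : C(unitInterval, ℂ)) (t : unitInterval) :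
    Summable fun n : ℕ => (1 / 2 : ℝ) ^ (n + 1) * wh g n t := by
  refine Summable.of_nonneg_of_le (fun n => mul_nonneg (by positivity) (wh_nonneg g n t))
    (fun n => ?_) (summable_half.mul_right (2 * ‖g‖))
  exact mul_le_mul_of_nonneg_left (wh_le_two g n t) (by positivity)

lemma tau_zero (g : C(unitInterval, ℂ)) : tau g 0 = 0 := by
  simp [tau, wh_zero]

lemma tau_continuous (g : C(unitInterval, ℂ)) : Continuous (tau g) := by
  refine continuous_subtype_val.add ?_
  refine continuous_tsum (fun n => (wh_continuous g n).const_mul _)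
    (summable_half.mul_right (2 * ‖g‖)) fun n t => ?_
  rw [Real.norm_eq_abs, abs_of_nonneg (mul_nonneg (by positivity) (wh_nonneg g n t))]
  exact mul_le_mul_of_nonneg_left (wh_le_two g n t) (by positivity)

lemma tau_sub (g : C(unitInterval, ℂ)) {s t : unitInterval} (h : s ≤ t) (k : ℕ) :
    ((t : ℝ) - s) + (1 / 2 : ℝ) ^ (k + 1) * (wh g k t - wh g k s) ≤ tau g t - tau g s := by
  have h1 : ∑' n : ℕ, (1 / 2 : ℝ) ^ (n + 1) * wh g n t - ∑' n : ℕ, (1 / 2 : ℝ) ^ (n + 1) * wh g n s
      = ∑' n : ℕ, ((1 / 2 : ℝ) ^ (n + 1) * wh g n t - (1 / 2 : ℝ) ^ (n + 1) * wh g n s) :=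
    ((summable_wh g t).tsum_sub (summable_wh g s)).symm
  have h2 : (1 / 2 : ℝ) ^ (k + 1) * wh g k t - (1 / 2 : ℝ) ^ (k + 1) * wh g k s ≤
      ∑' n : ℕ, ((1 / 2 : ℝ) ^ (n + 1) * wh g n t - (1 / 2 : ℝ) ^ (n + 1) * wh g n s) := by
    refine ((summable_wh g t).sub (summable_wh g s)).le_tsum k fun n _ => ?_
    rw [← mul_sub]
    exact mul_nonneg (by positivity) (sub_nonneg.2 (wh_mono g n h))
  unfold tau
  rw [mul_sub]
  linarith

lemma tau_strictMono (g : C(unitInterval, ℂ)) : StrictMono (tau g) := by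
  intro s t h
  have h1 := tau_sub g h.le 0
  have h2 : (s : ℝ) < t := h
  have h3 : 0 ≤ (1 / 2 : ℝ) ^ (0 + 1) * (wh g 0 t - wh g 0 s) :=
    mul_nonneg (by positivity) (sub_nonneg.2 (wh_mono g 0 h.le))
  linarith

lemma tau_one_ge (g : C(unitInterval, ℂ)) : 1 ≤ tau g 1 := by
  have h1 := tau_sub g (zero_le_one (α := unitInterval)) 0
  have h3 : 0 ≤ (1 / 2 : ℝ) ^ (0 + 1) * (wh g 0 1 - wh g 0 0) :=
    mul_nonneg (by positivity) (sub_nonneg.2 (wh_mono g 0 zero_le_one))
  rw [tau_zero] at h1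
  simp only [Set.Icc.coe_one, Set.Icc.coe_zero] at h1
  linarith

lemma tau_one_le (g : C(unitInterval, ℂ)) : tau g 1 ≤ 1 + 2 * ‖g‖ := by
  have h : ∑' n : ℕ, (1 / 2 : ℝ) ^ (n + 1) * wh g n 1 ≤
      ∑' n : ℕ, (1 / 2 : ℝ) ^ (n + 1) * (2 * ‖g‖) :=
    (summable_wh g 1).tsum_le_tsum
      (fun n => mul_le_mul_of_nonneg_left (wh_le_two g n 1) (by positivity))
      (summable_half.mul_right (2 * ‖g‖))
  rw [tsum_mul_right, tsum_half, one_mul] at h
  unfold tau
  simp only [Set.Icc.coe_one]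
  linarith

lemma tau_dist (g g' : C(unitInterval, ℂ)) (t : unitInterval) :
    |tau g t - tau g' t| ≤ 2 * dist g g' := by
  have h1 : tau g t - tau g' t =
      ∑' n : ℕ, ((1 / 2 : ℝ) ^ (n + 1) * wh g n t - (1 / 2 : ℝ) ^ (n + 1) * wh g' n t) := by
    rw [((summable_wh g t).tsum_sub (summable_wh g' t))]
    unfold tau; ring
  rw [h1, ← Real.norm_eq_abs]
  have h2 : ∀ n : ℕ, ‖(1 / 2 : ℝ) ^ (n + 1) * wh g n t - (1 / 2 : ℝ) ^ (n + 1) * wh g' n t‖ ≤
      (1 / 2 : ℝ) ^ (n + 1) * (2 * dist g g') := fun n => by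
    rw [← mul_sub, norm_mul, Real.norm_eq_abs, Real.norm_eq_abs,
      abs_of_nonneg (by positivity : (0:ℝ) ≤ (1 / 2 : ℝ) ^ (n + 1))]
    exact mul_le_mul_of_nonneg_left (wh_dist g g' n t) (by positivity)
  have h3 := tsum_of_norm_bounded ((summable_half.mul_right (2 * dist g g')).hasSum) h2
  rwa [tsum_mul_right, tsum_half, one_mul] at h3

lemma tau_nonneg (g : C(unitInterval, ℂ)) (t : unitInterval) : 0 ≤ tau g t := by
  have := (tau_strictMono g).monotone (show (0 : unitInterval) ≤ t from t.2.1)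
  rwa [tau_zero] at this

lemma tau_le_one (g : C(unitInterval, ℂ)) (t : unitInterval) : tau g t ≤ tau g 1 :=
  (tau_strictMono g).monotone (show t ≤ 1 from t.2.2)

/-- The normalised new time, a map of `[0,1]` to itself. -/
noncomputable def hh (g : C(unitInterval, ℂ)) (t : unitInterval) : unitInterval :=
  ⟨tau g t / tau g 1, div_nonneg (tau_nonneg g t) (tau_nonneg g 1),
    div_le_one_of_le₀ (tau_le_one g t) (tau_nonneg g 1)⟩

lemma hh_strictMono (g : C(unitInterval, ℂ)) : StrictMono (hh g) := by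
  intro s t h
  have : tau g s / tau g 1 < tau g t / tau g 1 :=
    div_lt_div_of_pos_right (tau_strictMono g h) (lt_of_lt_of_le one_pos (tau_one_ge g))
  exact this

lemma hh_continuous (g : C(unitInterval, ℂ)) : Continuous (hh g) :=
  Continuous.subtype_mk ((tau_continuous g).div_const _) _

lemma hh_zero (g : C(unitInterval, ℂ)) : hh g 0 = 0 := by
  apply Subtype.ext
  change tau g 0 / tau g 1 = 0
  rw [tau_zero, zero_div]

lemma hh_one (g : C(unitInterval, ℂ)) : hh g 1 = 1 := by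
  apply Subtype.ext
  change tau g 1 / tau g 1 = 1
  exact div_self (lt_of_lt_of_le one_pos (tau_one_ge g)).ne'

lemma hh_surjective (g : C(unitInterval, ℂ)) : Function.Surjective (hh g) := by
  intro u
  have h := intermediate_value_univ (0 : unitInterval) 1 (hh_continuous g)
  rw [hh_zero, hh_one] at h
  exact h ⟨u.2.1, u.2.2⟩

/-- The time change as an order isomorphism. -/
noncomputable def hIso (g : C(unitInterval, ℂ)) : unitInterval ≃o unitInterval :=
  (hh_strictMono g).orderIsoOfSurjective (hh g) (hh_surjective g)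

lemma hIso_apply (g : C(unitInterval, ℂ)) (t : unitInterval) : hIso g t = hh g t := rfl

/-- The canonical reparametrisation of a curve. -/
noncomputable def rho (g : C(unitInterval, ℂ)) : C(unitInterval, ℂ) := reparam g (hIso g).symm

lemma rho_hh (g : C(unitInterval, ℂ)) (t : unitInterval) : rho g (hh g t) = g t := by
  change g ((hIso g).symm (hIso g t)) = g t
  rw [OrderIso.symm_apply_apply]

lemma rho_apply (g : C(unitInterval, ℂ)) (u : unitInterval) : rho g u = g ((hIso g).symm u) := rfl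

lemma hh_dist (g g' : C(unitInterval, ℂ)) (t : unitInterval) :
    dist (hh g t) (hh g' t) ≤ 4 * dist g g' := by
  rw [Subtype.dist_eq, Real.dist_eq]
  change |tau g t / tau g 1 - tau g' t / tau g' 1| ≤ _
  have h1 := tau_one_ge g
  have h1' := tau_one_ge g'
  have ha := tau_dist g g' t
  have hb := tau_dist g g' 1
  have h0 := tau_nonneg g' t
  have h2 := tau_le_one g' t
  have h3 : tau g t / tau g 1 - tau g' t / tau g' 1 =
      (tau g t - tau g' t) / tau g 1 - (tau g' t / tau g' 1) * ((tau g 1 - tau g' 1) / tau g 1) := by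
    field_simp
    ring
  rw [h3]
  have h4 : |(tau g t - tau g' t) / tau g 1| ≤ 2 * dist g g' := by
    rw [abs_div, abs_of_pos (lt_of_lt_of_le one_pos h1)]
    exact (div_le_self (abs_nonneg _) h1).trans ha
  have h5 : |(tau g' t / tau g' 1) * ((tau g 1 - tau g' 1) / tau g 1)| ≤ 2 * dist g g' := by
    rw [abs_mul, abs_div (tau g 1 - tau g' 1), abs_of_pos (lt_of_lt_of_le one_pos h1)]
    have h6 : |tau g' t / tau g' 1| ≤ 1 := by
      rw [abs_of_nonneg (div_nonneg h0 (h0.trans h2))]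
      exact div_le_one_of_le₀ h2 (h0.trans h2)
    calc |tau g' t / tau g' 1| * (|tau g 1 - tau g' 1| / tau g 1)
        ≤ 1 * (|tau g 1 - tau g' 1| / tau g 1) := by gcongr
      _ ≤ 2 * dist g g' := by
        rw [one_mul]
        exact (div_le_self (abs_nonneg _) h1).trans hb
  calc _ ≤ _ := abs_sub _ _
    _ ≤ 4 * dist g g' := by linarith

theorem rho_continuous : Continuous rho := by
  rw [Metric.continuous_iff]
  intro g ε hε
  have hu : UniformContinuous (rho g) :=
    CompactSpace.uniformContinuous_of_continuous (rho g).continuous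
  obtain ⟨δ, hδ, h⟩ := Metric.uniformContinuous_iff.1 hu (ε / 2) (by positivity)
  refine ⟨min (ε / 4) (δ / 8), by positivity, fun g' hg' => ?_⟩
  have hd1 : dist g' g < ε / 4 := hg'.trans_le (min_le_left _ _)
  have hd2 : dist g' g < δ / 8 := hg'.trans_le (min_le_right _ _)
  refine lt_of_le_of_lt ((ContinuousMap.dist_le (C := 3 * ε / 4) (by positivity)).2 fun u => ?_)
    (by linarith)
  obtain ⟨t, rfl⟩ := hh_surjective g' u
  rw [rho_hh]
  have h1 : dist (g' t) (g t) ≤ ε / 4 := (ContinuousMap.dist_apply_le_dist t).trans hd1.le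
  have h2 : dist (g t) (rho g (hh g' t)) ≤ ε / 2 := by
    rw [← rho_hh g t]
    refine (h ?_).le
    rw [dist_comm]
    refine (hh_dist g' g t).trans_lt ?_
    linarith
  calc dist (g' t) (rho g (hh g' t)) ≤ dist (g' t) (g t) + dist (g t) (rho g (hh g' t)) :=
        dist_triangle _ _ _
    _ ≤ 3 * ε / 4 := by linarith

end Vale.Agent.P153.R2.C1
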